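import Mathlib

/-! # P123: matrix-valued polynomials and rational functions of an operator -/

open Polynomial

namespace Vale.Agent.P123.H686

/-- The numerical range `W(A) = {⟨Ax, x⟩ : ‖x‖ = 1}`. -/
def W {H : Type*} [NormedAddCommGroup H] [InnerProductSpace ℂ H] (A : H →L[ℂ] H) : Set ℂ :=
  {z : ℂ | ∃ x : H, ‖x‖ = 1 ∧ inner ℂ x (A x) = z}

/-- The operator norm of the `n × n` matrix `T` of bounded operators, acting on the Hilbert space
direct sum `H ⊕ ⋯ ⊕ H` of `n` copies of `H`: the supremum of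
`‖T x‖ = (∑ᵢ ‖∑ⱼ Tᵢⱼ xⱼ‖²)^(1/2)` over all `x = (x₁, …, xₙ)` with `∑ⱼ ‖xⱼ‖² ≤ 1`. -/
noncomputable def blockNorm {H : Type*} [NormedAddCommGroup H] [InnerProductSpace ℂ H] {n : ℕ}
    (T : Fin n → Fin n → (H →L[ℂ] H)) : ℝ :=
  sSup {r : ℝ | ∃ x : Fin n → H, ∑ j, ‖x j‖ ^ 2 ≤ 1 ∧ √(∑ i, ‖∑ j, T i j (x j)‖ ^ 2) = r}

/-- The operator norm of the `n × n` matrix `M` of complex numbers, acting on `ℂⁿ`: the supremum of
`‖M v‖ = (∑ᵢ |∑ⱼ Mᵢⱼ vⱼ|²)^(1/2)` over all `v ∈ ℂⁿ` with `∑ⱼ |vⱼ|² ≤ 1`. -/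
noncomputable def matNorm {n : ℕ} (M : Fin n → Fin n → ℂ) : ℝ :=
  sSup {r : ℝ | ∃ v : Fin n → ℂ, ∑ j, ‖v j‖ ^ 2 ≤ 1 ∧ √(∑ i, ‖∑ j, M i j * v j‖ ^ 2) = r}

/-- Crouzeix's inequality for `A` with the constant `C`: `‖P(A)‖ ≤ C sup_{z ∈ W(A)} |P(z)|` for all
complex polynomials `P`. -/
def ScalarBound {H : Type*} [NormedAddCommGroup H] [InnerProductSpace ℂ H] (A : H →L[ℂ] H)
    (C : ℝ) : Prop :=
  ∀ P : ℂ[X], ‖aeval A P‖ ≤ C * sSup ((fun z => ‖P.eval z‖) '' W A)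

/-- Crouzeix's inequality for `A` and `n × n` matrices of polynomials, with the constant `C`:
`‖P(A)‖ ≤ C sup_{z ∈ W(A)} ‖P(z)‖` for all `n × n` matrices `P = (Pᵢⱼ)` of complex polynomials, with
`P(A) = (Pᵢⱼ(A))` and `P(z) = (Pᵢⱼ(z))`. -/
def PolyBound {H : Type*} [NormedAddCommGroup H] [InnerProductSpace ℂ H] (n : ℕ) (A : H →L[ℂ] H)
    (C : ℝ) : Prop :=
  ∀ P : Fin n → Fin n → ℂ[X], blockNorm (fun i j => aeval A (P i j)) ≤
    C * sSup ((fun z => matNorm fun i j => (P i j).eval z) '' W A)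

/-- `Q` has no zero in the closure of the numerical range. -/
def NoZero {H : Type*} [NormedAddCommGroup H] [InnerProductSpace ℂ H] (A : H →L[ℂ] H)
    (Q : ℂ[X]) : Prop := ∀ z ∈ closure (W A), Q.eval z ≠ 0

/-- `Q(A)` is invertible for all polynomials `Q` without zero in the closure of `W(A)`. -/
def UnitOff {H : Type*} [NormedAddCommGroup H] [InnerProductSpace ℂ H] (A : H →L[ℂ] H) : Prop :=
  ∀ Q : ℂ[X], NoZero A Q → IsUnit (aeval A Q)

/-- Crouzeix's inequality for `A` and `n × n` matrices `(Pᵢⱼ / Q)` of rational functions without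
poles in the closure of `W(A)` (written with a common denominator `Q`), with the constant `C`:
`‖(Pᵢⱼ(A) Q(A)⁻¹)‖ ≤ C sup_{z ∈ W(A)} ‖(Pᵢⱼ(z) / Q(z))‖`. -/
def RatBound {H : Type*} [NormedAddCommGroup H] [InnerProductSpace ℂ H] (n : ℕ) (A : H →L[ℂ] H)
    (C : ℝ) : Prop :=
  ∀ (P : Fin n → Fin n → ℂ[X]) (Q : ℂ[X]), NoZero A Q →
    blockNorm (fun i j => aeval A (P i j) * Ring.inverse (aeval A Q)) ≤
      C * sSup ((fun z => matNorm fun i j => (P i j).eval z / Q.eval z) '' W A)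

end Vale.Agent.P123.H686
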