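import Mathlib
import Vale.Agent.P123.H686.CcDefs

/-! # P123: matrix-valued polynomials and rational functions of an operator -/

open Polynomial

namespace Vale.Agent.P123.H686

/-- The operator on the Hilbert space `H ⊕ ⋯ ⊕ H` (`n` summands, norm `(∑ ‖xⱼ‖²)^(1/2)`) given by
the `n × n` matrix `T` of bounded operators on `H`: its `i`-th component is
`x ↦ ∑ⱼ Tᵢⱼ xⱼ`. -/
noncomputable def blockOp {H : Type*} [NormedAddCommGroup H] [InnerProductSpace ℂ H] {n : ℕ}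
    (T : Fin n → Fin n → (H →L[ℂ] H)) :
    PiLp 2 (fun _ : Fin n => H) →L[ℂ] PiLp 2 (fun _ : Fin n => H) :=
  ((PiLp.continuousLinearEquiv 2 ℂ (fun _ : Fin n => H)).symm :
    (Fin n → H) →L[ℂ] PiLp 2 (fun _ : Fin n => H)) ∘L
  (ContinuousLinearMap.pi fun i => ∑ j, T i j ∘L (PiLp.proj 2 (fun _ : Fin n => H) j))

/-- For an `n × n` matrix `P` of polynomials, the operator norm of `P(A) = (Pᵢⱼ(A))` on
`H ⊕ ⋯ ⊕ H`. -/
noncomputable def normAt {H : Type*} [NormedAddCommGroup H] [InnerProductSpace ℂ H] {n : ℕ}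
    (A : H →L[ℂ] H) (P : Matrix (Fin n) (Fin n) ℂ[X]) : ℝ :=
  ‖blockOp fun i j => aeval A (P i j)‖

/-- The supremum over `z ∈ W(A)` of the operator norm on `ℂⁿ` of the matrix `P(z) = (Pᵢⱼ(z))`. -/
noncomputable def supOnW {H : Type*} [NormedAddCommGroup H] [InnerProductSpace ℂ H] {n : ℕ}
    (A : H →L[ℂ] H) (P : Matrix (Fin n) (Fin n) ℂ[X]) : ℝ :=
  sSup ((fun z => ‖Matrix.toEuclideanCLM (𝕜 := ℂ) (P.map (eval z))‖) '' W A)

end Vale.Agent.P123.H686
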