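import Mathlib
import Vale.Agent.P123.Bdl.B2

/-! # P123: the matrix-valued form of the main estimate on a smooth convex domain -/

namespace Vale.Agent.P123
open Complex MeasureTheory Set Filter Topology Polynomial
open scoped Real ComplexConjugate ComplexOrder

/-! ### A Schur product inequality for positive operators -/

section schur
variable {H : Type*} [NormedAddCommGroup H] [InnerProductSpace ℂ H]

/-- the Gram matrix of a positive form is positive semidefinite -/
theorem posSemidef_gram {ι : Type*} [Fintype ι] (T : H →L[ℂ] H)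
    (hT : ∀ u : H, inner ℂ u (T u) = (((inner ℂ u (T u) : ℂ).re : ℝ) : ℂ))
    (hT' : ∀ u : H, 0 ≤ (inner ℂ u (T u) : ℂ).re)
    (hs : ∀ u v : H, inner ℂ v (T u) = conj (inner ℂ u (T v) : ℂ)) (z : ι → H) :
    (Matrix.of fun p q => (inner ℂ (z p) (T (z q)) : ℂ)).PosSemidef := by
  classical
  rw [Matrix.posSemidef_iff_dotProduct_mulVec]
  refine ⟨?_, fun a => ?_⟩
  · ext p q
    simp only [Matrix.conjTranspose_apply, Matrix.of_apply]
    rw [hs (z p) (z q)]
    simp
  · have h1 : star a ⬝ᵥ (Matrix.of fun p q => (inner ℂ (z p) (T (z q)) : ℂ)).mulVec a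
        = inner ℂ (∑ p, a p • z p) (T (∑ q, a q • z q)) := by
      simp only [dotProduct, Matrix.mulVec, Matrix.of_apply, map_sum, sum_inner, inner_sum,
        map_smul, inner_smul_left, inner_smul_right, Pi.star_apply, Finset.mul_sum]
      rw [Finset.sum_comm]
      refine Finset.sum_congr rfl fun p _ => Finset.sum_congr rfl fun q _ => ?_
      rw [RCLike.star_def]
      ring
    rw [h1, hT]
    exact_mod_cast hT' _

/-- the signed sum of the squares of the entries of a Gram matrix is nonnegative -/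
theorem schur_sq {ι : Type*} [Fintype ι] {G : Matrix ι ι ℂ} (hG : G.PosSemidef) (v : ι → ℝ) :
    0 ≤ ∑ p, ∑ q, v p * v q * ‖G p q‖ ^ 2 := by
  classical
  have h1 : (G.transpose).PosSemidef := hG.transpose
  have h2 := hG.hadamard h1
  have h3 := (Matrix.posSemidef_iff_dotProduct_mulVec.1 h2).2 (fun p => ((v p : ℝ) : ℂ))
  have hH : ∀ p q, G q p = conj (G p q) := fun p q => by
    have := hG.1.apply q p
    rw [← this]; rfl
  have h4 : star (fun p => ((v p : ℝ) : ℂ)) ⬝ᵥ (Matrix.hadamard G G.transpose).mulVec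
      (fun p => ((v p : ℝ) : ℂ)) = ((∑ p, ∑ q, v p * v q * ‖G p q‖ ^ 2 : ℝ) : ℂ) := by
    simp only [dotProduct, Matrix.mulVec, Matrix.hadamard_apply, Matrix.transpose_apply,
      Pi.star_apply, RCLike.star_def, Complex.conj_ofReal, Finset.mul_sum]
    push_cast
    refine Finset.sum_congr rfl fun p _ => Finset.sum_congr rfl fun q _ => ?_
    rw [hH p q, Complex.mul_conj, Complex.normSq_eq_norm_sq]
    push_cast; ring
  rw [h4] at h3
  exact_mod_cast h3

/-- The mixed Hilbert-Schmidt bound for a positive form. -/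
theorem sum_sq_mixed {ι : Type*} [Fintype ι] (T : H →L[ℂ] H)
    (hT : ∀ u : H, inner ℂ u (T u) = (((inner ℂ u (T u) : ℂ).re : ℝ) : ℂ))
    (hT' : ∀ u : H, 0 ≤ (inner ℂ u (T u) : ℂ).re)
    (hs : ∀ u v : H, inner ℂ v (T u) = conj (inner ℂ u (T v) : ℂ)) (x y : ι → H) :
    2 * ∑ i, ∑ k, ‖(inner ℂ (y i) (T (x k)) : ℂ)‖ ^ 2
      ≤ (∑ i, ∑ k, ‖(inner ℂ (x i) (T (x k)) : ℂ)‖ ^ 2)
        + ∑ i, ∑ k, ‖(inner ℂ (y i) (T (y k)) : ℂ)‖ ^ 2 := by
  have h1 := schur_sq (posSemidef_gram T hT hT' hs (Sum.elim x y))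
    (Sum.elim (fun _ : ι => (1 : ℝ)) (fun _ : ι => (-1 : ℝ)))
  simp only [Fintype.sum_sum_type, Sum.elim_inl, Sum.elim_inr, Matrix.of_apply] at h1
  have h2 : ∑ i, ∑ k, ‖(inner ℂ (x i) (T (y k)) : ℂ)‖ ^ 2
      = ∑ i, ∑ k, ‖(inner ℂ (y i) (T (x k)) : ℂ)‖ ^ 2 := by
    rw [Finset.sum_comm]
    refine Finset.sum_congr rfl fun i _ => Finset.sum_congr rfl fun k _ => ?_
    rw [hs (y i) (x k), RCLike.norm_conj]
  simp only [mul_neg, mul_one, neg_mul, one_mul, neg_neg, Finset.sum_neg_distrib,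
    Finset.sum_add_distrib] at h1
  rw [h2] at h1
  linarith

end schur


/-! ### The main estimate -/

namespace Dom
variable {D : Dom}
variable {H : Type*} [NormedAddCommGroup H] [InnerProductSpace ℂ H] [CompleteSpace H]
variable {A : H →L[ℂ] H} {η : ℝ} {w0 : ℝ → ℝ}

/-- squared weighted norm of a matrix coefficient of the Cauchy density -/
noncomputable def nX (D : Dom) (A : H →L[ℂ] H) (w0 : ℝ → ℝ) (u v : H) : ℝ :=
  ∫ s in (0:ℝ)..(2*π), ‖D.X A u v s‖ ^ 2 / w0 s

/-- the energy of a pair of vectors -/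
noncomputable def eX (D : Dom) (A : H →L[ℂ] H) (w0 : ℝ → ℝ) (u v : H) : ℝ :=
  ‖(inner ℂ u v : ℂ)‖ ^ 2 + D.nX A w0 u v

omit [CompleteSpace H] in
theorem nX_nonneg (hw : D.Equil w0) (u v : H) : 0 ≤ D.nX A w0 u v := by
  unfold nX
  apply intervalIntegral.integral_nonneg (by positivity)
  intro s _
  have := (hw.pos s).le
  positivity

theorem continuous_X_sq (hA : D.Inside A η) (hw : D.Equil w0) (u v : H) :
    Continuous fun s => ‖D.X A u v s‖ ^ 2 / w0 s :=
  ((continuous_X hA u v).norm.pow 2).div hw.cont fun s => (hw.pos s).ne'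

/-- the test element of a pair of vectors -/
theorem exists_q2 (hA : D.Inside A η) (hw : D.Equil w0) (u v : H) :
    ∃ q ∈ D.S A,
      inner ℂ u (q.2 v) = ((D.eX A w0 u v / 2 : ℝ) : ℂ) ∧
      ∫ t in (0:ℝ)..(2*π), ‖q.1 (D.bd t)‖ ^ 2 * w0 t ≤ D.eX A w0 u v / 2 := by
  have hXc := continuous_X hA u v
  have hw0 : ∀ s, w0 s ≠ 0 := fun s => (hw.pos s).ne'
  set ξ : ℝ → ℂ := fun s => D.X A u v s / (w0 s : ℂ) with hξ
  have hξc : Continuous ξ := hXc.div hw.cont_ofReal hw.ne_zero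
  have hξp : ∀ s, ξ (s + 2 * π) = ξ s := by
    intro s; simp only [hξ]; rw [X_periodic, hw.per]
  have hξm : ∀ s, ξ s * (w0 s : ℂ) = D.X A u v s := fun s => div_mul_cancel₀ _ (hw.ne_zero s)
  have hnn : ∀ s, ‖ξ s‖ ^ 2 * w0 s = ‖D.X A u v s‖ ^ 2 / w0 s := by
    intro s
    simp only [hξ]
    rw [norm_div, Complex.norm_real, Real.norm_of_nonneg (hw.pos s).le, div_pow]
    have := hw0 s
    field_simp
  set φ : ℝ → ℂ := fun s => conj (ξ s) with hφ
  have hφc : Continuous φ := Complex.continuous_conj.comp hξc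
  have hφp : ∀ s, φ (s + 2 * π) = φ s := by intro s; simp only [hφ]; rw [hξp]
  set c : ℂ := inner ℂ u v with hc
  have hV : ∀ z ∈ D.Om, D.Cin (fun s => conj (φ s)) z = c := by
    intro z hz
    have := Cin_X hA hw u v hz
    rw [hc, ← this]
    congr 1
    funext s
    simp only [hφ, hξ, Complex.conj_conj]
  obtain ⟨y, hyS, hyb, hy2⟩ := S_cauchy' hA hφc hφp hV
  set q : C(D.K, ℂ) × (H →L[ℂ] H) :=
    (2⁻¹ : ℂ) • ((conj c) • (1 : C(D.K, ℂ) × (H →L[ℂ] H)) + y) with hqdef
  have hq : q ∈ D.S A :=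
    Subalgebra.smul_mem _ (add_mem (Subalgebra.smul_mem _ (one_mem _) _) hyS) _
  have hone : (1 : H →L[ℂ] H) v = v := rfl
  have hcc : conj c * c = ((‖c‖ ^ 2 : ℝ) : ℂ) := by
    rw [mul_comm, Complex.mul_conj, Complex.normSq_eq_norm_sq]
  have hL : inner ℂ u (q.2 v) = ((D.eX A w0 u v / 2 : ℝ) : ℂ) := by
    have e1 : ∫ s in (0:ℝ)..(2*π), φ s * D.X A u v s = (D.nX A w0 u v : ℂ) := by
      unfold nX
      rw [← intervalIntegral.integral_ofReal]
      congr 1; ext1 s
      rw [← hnn, ← hξm s, ← mul_assoc]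
      simp only [hφ]
      rw [mul_comm (conj _), Complex.mul_conj, Complex.normSq_eq_norm_sq]
      push_cast; ring
    rw [hqdef, Prod.smul_snd, Prod.snd_add, Prod.smul_snd, Prod.snd_one, smul_apply, add_apply,
      smul_apply, inner_smul_right, inner_add_right, inner_smul_right, hone, ← hc, hcc, hy2,
      integral_mul_X hA hφc, e1]
    unfold eX
    push_cast; ring
  refine ⟨q, hq, hL, ?_⟩
  have hqb : ∀ t, q.1 (D.bd t) = 2⁻¹ * (φ t + D.Dc φ t) := by
    intro t
    rw [hqdef, Prod.smul_fst, Prod.fst_add, Prod.smul_fst, Prod.fst_one,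
      ContinuousMap.smul_apply, ContinuousMap.add_apply, ContinuousMap.smul_apply,
      ContinuousMap.one_apply, hyb t, smul_eq_mul, smul_eq_mul]
    ring
  have hqc : Continuous fun t => q.1 (D.bd t) := q.1.continuous.comp D.continuous_bd
  have hcon := hw.contraction hφc hφp
  have hnφ : ∫ t in (0:ℝ)..(2*π), ‖φ t‖ ^ 2 * w0 t = D.nX A w0 u v := by
    unfold nX
    congr 1; ext1 t
    simp only [hφ, RCLike.norm_conj]
    exact hnn t
  have e1 : ∀ t, ‖D.Dc φ t‖ ^ 2 * w0 t = 4 * (‖q.1 (D.bd t)‖ ^ 2 * w0 t) + ‖φ t‖ ^ 2 * w0 t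
      - 4 * (q.1 (D.bd t) * D.X A u v t).re := by
    intro t
    have h1 : D.Dc φ t = 2 * q.1 (D.bd t) - φ t := by rw [hqb t]; ring
    have h2 : ‖D.Dc φ t‖ ^ 2 = 4 * ‖q.1 (D.bd t)‖ ^ 2 + ‖φ t‖ ^ 2
        - 4 * (q.1 (D.bd t) * conj (φ t)).re := by
      rw [h1, ← Complex.normSq_eq_norm_sq, ← Complex.normSq_eq_norm_sq,
        ← Complex.normSq_eq_norm_sq, Complex.normSq_sub, Complex.normSq_mul]
      have : Complex.normSq 2 = 4 := by norm_num [Complex.normSq_apply]
      rw [this, mul_assoc 2 (q.1 (D.bd t))]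
      have h3 : (2 * (q.1 (D.bd t) * conj (φ t))).re = 2 * (q.1 (D.bd t) * conj (φ t)).re := by
        simp only [mul_re, re_ofNat, conj_re, conj_im, mul_neg, sub_neg_eq_add, im_ofNat, mul_im, zero_mul, sub_zero]
      rw [h3]; ring
    have h4 : (q.1 (D.bd t) * D.X A u v t).re = (q.1 (D.bd t) * conj (φ t)).re * w0 t := by
      rw [← hξm t, ← mul_assoc, Complex.re_mul_ofReal]
      simp only [hφ, Complex.conj_conj]
    rw [h2, h4]; ring
  have hi1 : Continuous fun t => 4 * (‖q.1 (D.bd t)‖ ^ 2 * w0 t) :=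
    continuous_const.mul ((hqc.norm.pow 2).mul hw.cont)
  have hi2 : Continuous fun t => ‖φ t‖ ^ 2 * w0 t := (hφc.norm.pow 2).mul hw.cont
  have hi3 : Continuous fun t => q.1 (D.bd t) * D.X A u v t := hqc.mul hXc
  have hi4 : Continuous fun t => 4 * (q.1 (D.bd t) * D.X A u v t).re :=
    continuous_const.mul (Complex.continuous_re.comp hi3)
  simp_rw [e1] at hcon
  rw [integral_add_sub hi1 hi2 hi4, intervalIntegral.integral_const_mul,
    intervalIntegral.integral_const_mul, integral_re hi3, S_integral_X hA hq u v, hL, hnφ,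
    Complex.ofReal_re] at hcon
  linarith only [hcon]


/-- the weighted square norm of a matrix coefficient of the positive density -/
theorem int_M_sq (hA : D.Inside A η) (hw : D.Equil w0) (u v : H) :
    ∫ s in (0:ℝ)..(2*π), ‖(inner ℂ u (D.M A s v) : ℂ)‖ ^ 2 / w0 s
      = D.nX A w0 u v + D.nX A w0 v u + 2 * ‖(inner ℂ u v : ℂ)‖ ^ 2 := by
  have hc : Continuous fun s => D.X A u v s * D.X A v u s / (w0 s : ℂ) :=
    ((continuous_X hA u v).mul (continuous_X hA v u)).div hw.cont_ofReal hw.ne_zero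
  have hr : Continuous fun s => (-2) * (D.X A u v s * D.X A v u s / (w0 s : ℂ)).re :=
    continuous_const.mul (Complex.continuous_re.comp hc)
  have hpt : ∀ s, ‖(inner ℂ u (D.M A s v) : ℂ)‖ ^ 2 / w0 s
      = ‖D.X A u v s‖ ^ 2 / w0 s + ‖D.X A v u s‖ ^ 2 / w0 s
        - (-2) * (D.X A u v s * D.X A v u s / (w0 s : ℂ)).re := by
    intro s
    rw [inner_M_X, Complex.div_ofReal_re]
    have h3 : ‖D.X A u v s + conj (D.X A v u s)‖ ^ 2 = ‖D.X A u v s‖ ^ 2 + ‖D.X A v u s‖ ^ 2
        + 2 * (D.X A u v s * D.X A v u s).re := by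
      rw [← Complex.normSq_eq_norm_sq, ← Complex.normSq_eq_norm_sq,
        ← Complex.normSq_eq_norm_sq, Complex.normSq_add, Complex.conj_conj, Complex.normSq_conj]
    rw [h3]; ring
  simp_rw [hpt]
  rw [integral_add_sub (continuous_X_sq hA hw u v) (continuous_X_sq hA hw v u) hr,
    intervalIntegral.integral_const_mul, integral_re hc, pair_equil hA hw]
  have h6 : (inner ℂ u v * inner ℂ v u : ℂ).re = ‖(inner ℂ u v : ℂ)‖ ^ 2 := by
    rw [← inner_conj_symm v u, Complex.mul_conj, Complex.ofReal_re, Complex.normSq_eq_norm_sq]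
  rw [h6]
  unfold nX
  ring

variable {ι : Type*} [Fintype ι]

/-- total energy of a family of vectors -/
noncomputable def EX (D : Dom) (A : H →L[ℂ] H) (w0 : ℝ → ℝ) (x : ι → H) : ℝ :=
  ∑ i, ∑ k, D.eX A w0 (x i) (x k)

omit [CompleteSpace H] in
theorem EX_pos (hw : D.Equil w0) {x : ι → H} (hx : x ≠ 0) : 0 < D.EX A w0 x := by
  obtain ⟨k, hk⟩ : ∃ k, x k ≠ 0 := by
    by_contra h
    push Not at h
    exact hx (funext h)
  have h0 : ∀ u v : H, 0 ≤ D.eX A w0 u v := fun u v => by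
    unfold eX
    have := nX_nonneg (A := A) hw u v
    positivity
  have h1 : 0 < D.eX A w0 (x k) (x k) := by
    unfold eX
    have h2 := nX_nonneg (A := A) hw (x k) (x k)
    have h3 : 0 < ‖(inner ℂ (x k) (x k) : ℂ)‖ ^ 2 := by
      have : (inner ℂ (x k) (x k) : ℂ) ≠ 0 := inner_self_ne_zero.2 hk
      positivity
    linarith
  unfold EX
  refine lt_of_lt_of_le h1 ?_
  refine le_trans ?_ (Finset.single_le_sum (f := fun i => ∑ k, D.eX A w0 (x i) (x k))
    (fun i _ => Finset.sum_nonneg fun j _ => h0 _ _) (Finset.mem_univ k))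
  exact Finset.single_le_sum (f := fun j => D.eX A w0 (x k) (x j))
    (fun j _ => h0 _ _) (Finset.mem_univ k)

theorem integral_sum_sum {f : ι → ι → ℝ → ℝ} (hf : ∀ i k, Continuous (f i k)) (a b : ℝ) :
    ∫ s in a..b, ∑ i, ∑ k, f i k s = ∑ i, ∑ k, ∫ s in a..b, f i k s := by
  rw [intervalIntegral.integral_finsetSum]
  · refine Finset.sum_congr rfl fun i _ => ?_
    rw [intervalIntegral.integral_finsetSum]
    exact fun k _ => (hf i k).intervalIntegrable _ _
  · exact fun i _ => (continuous_finsetSum _ fun k _ => hf i k).intervalIntegrable _ _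

/-- mixed coefficients of the Cauchy density -/
theorem sum_nX_le (hA : D.Inside A η) (hw : D.Equil w0) (x y : ι → H) :
    ∑ i, ∑ k, D.nX A w0 (y i) (x k) ≤ D.EX A w0 x + D.EX A w0 y := by
  have hMc : ∀ u v : H, Continuous fun s => ‖(inner ℂ u (D.M A s v) : ℂ)‖ ^ 2 / w0 s := by
    intro u v
    have h1 : Continuous fun s => (inner ℂ u (D.M A s v) : ℂ) := by
      have h2 := continuous_M hA
      exact continuous_const.inner (h2.clm_apply continuous_const)
    exact (h1.norm.pow 2).div hw.cont fun s => (hw.pos s).ne'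
  have hpt : ∀ s, 2 * ∑ i, ∑ k, ‖(inner ℂ (y i) (D.M A s (x k)) : ℂ)‖ ^ 2 / w0 s
      ≤ (∑ i, ∑ k, ‖(inner ℂ (x i) (D.M A s (x k)) : ℂ)‖ ^ 2 / w0 s)
        + ∑ i, ∑ k, ‖(inner ℂ (y i) (D.M A s (y k)) : ℂ)‖ ^ 2 / w0 s := by
    intro s
    have h1 := sum_sq_mixed (D.M A s) (fun u => inner_M_eq_re (D := D) A s u)
      (fun u => inner_M_re_nonneg hA s u) (fun u v => by
        have h2 : inner ℂ v (D.M A s u) = inner ℂ (D.M A s v) u := by
          have h3 := (isSelfAdjoint_M (D := D) A s).adjoint_eq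
          conv_lhs => rw [← h3]
          rw [ContinuousLinearMap.adjoint_inner_right]
        rw [h2, inner_conj_symm]) x y
    have hp := hw.pos s
    simp only [← Finset.sum_div]
    rw [← mul_div_assoc, ← add_div]
    exact div_le_div_of_nonneg_right h1 hp.le
  have hmono := intervalIntegral.integral_mono_on (μ := volume) (a := 0) (b := 2 * π)
    (f := fun s => 2 * ∑ i, ∑ k, ‖(inner ℂ (y i) (D.M A s (x k)) : ℂ)‖ ^ 2 / w0 s)
    (g := fun s => (∑ i, ∑ k, ‖(inner ℂ (x i) (D.M A s (x k)) : ℂ)‖ ^ 2 / w0 s)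
        + ∑ i, ∑ k, ‖(inner ℂ (y i) (D.M A s (y k)) : ℂ)‖ ^ 2 / w0 s)
    (by positivity)
    ((continuous_const.mul (continuous_finsetSum _ fun i _ => continuous_finsetSum _
      fun k _ => hMc _ _)).intervalIntegrable _ _)
    (((continuous_finsetSum _ fun i _ => continuous_finsetSum _
      fun k _ => hMc _ _).add (continuous_finsetSum _ fun i _ => continuous_finsetSum _
      fun k _ => hMc _ _)).intervalIntegrable _ _)
    (fun s _ => hpt s)
  rw [intervalIntegral.integral_const_mul, integral_sum_sum (fun i k => hMc _ _),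
    intervalIntegral.integral_add, integral_sum_sum (fun i k => hMc _ _),
    integral_sum_sum (fun i k => hMc _ _)] at hmono
  · simp only [int_M_sq hA hw] at hmono
    have hxx : ∀ z : ι → H, ∑ i, ∑ k, (D.nX A w0 (z i) (z k) + D.nX A w0 (z k) (z i)
        + 2 * ‖(inner ℂ (z i) (z k) : ℂ)‖ ^ 2) = 2 * D.EX A w0 z := by
      intro z
      have h1 : ∑ i, ∑ k, D.nX A w0 (z k) (z i) = ∑ i, ∑ k, D.nX A w0 (z i) (z k) :=
        Finset.sum_comm
      unfold EX eX
      simp only [Finset.sum_add_distrib, ← Finset.mul_sum] at h1 ⊢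
      rw [h1]; ring
    rw [hxx x, hxx y] at hmono
    have h2 : ∑ i, ∑ k, D.nX A w0 (y i) (x k) ≤ ∑ i, ∑ k, (D.nX A w0 (y i) (x k)
        + D.nX A w0 (x k) (y i) + 2 * ‖(inner ℂ (y i) (x k) : ℂ)‖ ^ 2) := by
      refine Finset.sum_le_sum fun i _ => Finset.sum_le_sum fun k _ => ?_
      have := nX_nonneg (A := A) hw (x k) (y i)
      have : 0 ≤ ‖(inner ℂ (y i) (x k) : ℂ)‖ ^ 2 := by positivity
      linarith
    linarith
  · exact (continuous_finsetSum _ fun i _ => continuous_finsetSum _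
      fun k _ => hMc _ _).intervalIntegrable _ _
  · exact (continuous_finsetSum _ fun i _ => continuous_finsetSum _
      fun k _ => hMc _ _).intervalIntegrable _ _


/-- the final computation -/
theorem main_arith (hA : D.Inside A η) (hw : D.Equil w0) {x y : ι → H}
    {q : ι → ι → C(D.K, ℂ) × (H →L[ℂ] H)} {E m κ : ℝ} (hm : 0 < m) (hE : 0 < E)
    (hx : D.EX A w0 x ≤ E) (hy : D.EX A w0 y ≤ E)
    (hq : ∑ i, ∑ k, ∫ t in (0:ℝ)..(2*π), ‖(q i k).1 (D.bd t)‖ ^ 2 * w0 t ≤ E / 2)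
    {g : ℝ → ℂ}
    (hgb : ∀ s, ‖g s‖ ≤ m * ((∑ i, ∑ k, ‖(q i k).1 (D.bd s)‖ ^ 2 * w0 s)
      + 4⁻¹ * ∑ i, ∑ k, ‖D.X A (y i) (x k) s‖ ^ 2 / w0 s))
    (hg : ∫ s in (0:ℝ)..(2*π), g s = ((κ * (E / 2) : ℝ) : ℂ)) : κ ≤ 2 * m := by
  have hqc : ∀ i k, Continuous fun t => ‖(q i k).1 (D.bd t)‖ ^ 2 * w0 t := fun i k =>
    (((q i k).1.continuous.comp D.continuous_bd).norm.pow 2).mul hw.cont
  have hXc : ∀ i k, Continuous fun s => ‖D.X A (y i) (x k) s‖ ^ 2 / w0 s := fun i k =>
    continuous_X_sq hA hw _ _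
  have hc1 : Continuous fun s => ∑ i, ∑ k, ‖(q i k).1 (D.bd s)‖ ^ 2 * w0 s :=
    continuous_finsetSum _ fun i _ => continuous_finsetSum _ fun k _ => hqc i k
  have hc2 : Continuous fun s => 4⁻¹ * ∑ i, ∑ k, ‖D.X A (y i) (x k) s‖ ^ 2 / w0 s :=
    continuous_const.mul
      (continuous_finsetSum _ fun i _ => continuous_finsetSum _ fun k _ => hXc i k)
  have h1 : ‖∫ s in (0:ℝ)..(2*π), g s‖ ≤ ∫ s in (0:ℝ)..(2*π),
      m * ((∑ i, ∑ k, ‖(q i k).1 (D.bd s)‖ ^ 2 * w0 s)
      + 4⁻¹ * ∑ i, ∑ k, ‖D.X A (y i) (x k) s‖ ^ 2 / w0 s) := by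
    apply intervalIntegral.norm_integral_le_of_norm_le (by positivity)
    · exact Filter.Eventually.of_forall fun s _ => hgb s
    · exact (continuous_const.mul (hc1.add hc2)).intervalIntegrable _ _
  rw [intervalIntegral.integral_const_mul, intervalIntegral.integral_add
    (hc1.intervalIntegrable _ _) (hc2.intervalIntegrable _ _), integral_sum_sum hqc,
    intervalIntegral.integral_const_mul, integral_sum_sum hXc, hg] at h1
  have h2 : ∑ i, ∑ k, ∫ s in (0:ℝ)..(2*π), ‖D.X A (y i) (x k) s‖ ^ 2 / w0 s ≤ 2 * E := by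
    have := sum_nX_le hA hw x y
    unfold nX at this
    linarith
  have h3 : κ * (E / 2) ≤ ‖((κ * (E / 2) : ℝ) : ℂ)‖ := by
    rw [Complex.norm_real]; exact le_abs_self _
  have h4 : κ * (E / 2) ≤ m * E := by
    refine h3.trans (h1.trans ?_)
    apply mul_le_mul_of_nonneg_left _ hm.le
    linarith
  have h5 : κ * (E / 2) ≤ (2 * m) * (E / 2) := by linarith
  exact le_of_mul_le_mul_right h5 (by positivity)

theorem integral_sum3 {f : ι → ι → ι → ℝ → ℂ} (hf : ∀ i j k, Continuous (f i j k)) {a b : ℝ} :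
    ∫ s in a..b, ∑ i, ∑ j, ∑ k, f i j k s = ∑ i, ∑ j, ∑ k, ∫ s in a..b, f i j k s := by
  rw [intervalIntegral.integral_finsetSum]
  · refine Finset.sum_congr rfl fun i _ => ?_
    rw [intervalIntegral.integral_finsetSum]
    · refine Finset.sum_congr rfl fun j _ => ?_
      rw [intervalIntegral.integral_finsetSum]
      exact fun k _ => (hf i j k).intervalIntegrable _ _
    · exact fun j _ => (continuous_finsetSum _ fun k _ => hf i j k).intervalIntegrable _ _
  · exact fun i _ => (continuous_finsetSum _ fun j _ => continuous_finsetSum _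
      fun k _ => hf i j k).intervalIntegrable _ _

/-- elementary inequality -/
theorem young_aux {a b w c : ℝ} (hc : 0 < c) (hw : 0 < w) :
    a * b ≤ c * (a ^ 2 * w) + (4 * c)⁻¹ * (b ^ 2 / w) := by
  have h : 0 ≤ (2 * c * w * a - b) ^ 2 / (4 * c * w) := by positivity
  have e : (2 * c * w * a - b) ^ 2 / (4 * c * w)
      = c * (a ^ 2 * w) + (4 * c)⁻¹ * (b ^ 2 / w) - a * b := by
    field_simp; ring
  linarith

/-- The bound `2` for exact singular pairs of matrix-valued functions. -/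
theorem crouzeix_dom_mat (hA : D.Inside A η) (hw : D.Equil w0)
    {F : ι → ι → C(D.K, ℂ) × (H →L[ℂ] H)} (hF : ∀ i k, F i k ∈ D.S A) {m : ℝ} (hm0 : 0 < m)
    (hm : ∀ z, ∀ v : ι → ℂ, ∑ i, ‖∑ k, (F i k).1 z * v k‖ ^ 2 ≤ m ^ 2 * ∑ k, ‖v k‖ ^ 2)
    {κ : ℝ} {x y : ι → H} (hx : x ≠ 0)
    (hfx : ∀ i, ∑ k, (F i k).2 (x k) = (κ : ℂ) • y i)
    (hfy : ∀ k, ∑ i, ContinuousLinearMap.adjoint (F i k).2 (y i) = (κ : ℂ) • x k) :
    κ ≤ 2 * m := by
  have hEx := EX_pos (A := A) hw hx
  rcases le_total (D.EX A w0 y) (D.EX A w0 x) with hle | hle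
  · -- test element built from `x`
    choose q hqS hqL hqb using fun i k => exists_q2 hA hw (x i) (x k)
    refine main_arith (q := q) hA hw hm0 hEx le_rfl hle ?_ (g := fun s =>
      ∑ i, ∑ j, (∑ k, (F i k).1 (D.bd s) * (q k j).1 (D.bd s)) * D.X A (y i) (x j) s) ?_ ?_
    · calc ∑ i, ∑ k, ∫ t in (0:ℝ)..(2*π), ‖(q i k).1 (D.bd t)‖ ^ 2 * w0 t
          ≤ ∑ i, ∑ k, D.eX A w0 (x i) (x k) / 2 :=
            Finset.sum_le_sum fun i _ => Finset.sum_le_sum fun k _ => hqb i k
        _ = D.EX A w0 x / 2 := by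
            unfold EX
            simp only [← Finset.sum_div]
    · intro s
      have hp := hw.pos s
      set p : ι → ι → ℂ := fun i j => ∑ k, (F i k).1 (D.bd s) * (q k j).1 (D.bd s) with hpdef
      have h1 : ∀ j, ∑ i, ‖p i j‖ ^ 2 ≤ m ^ 2 * ∑ k, ‖(q k j).1 (D.bd s)‖ ^ 2 := fun j =>
        hm (D.bd s) (fun k => (q k j).1 (D.bd s))
      calc ‖∑ i, ∑ j, p i j * D.X A (y i) (x j) s‖
          ≤ ∑ i, ∑ j, ‖p i j‖ * ‖D.X A (y i) (x j) s‖ := by
            refine (norm_sum_le _ _).trans (Finset.sum_le_sum fun i _ => ?_)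
            refine (norm_sum_le _ _).trans (Finset.sum_le_sum fun j _ => ?_)
            rw [norm_mul]
        _ ≤ ∑ i, ∑ j, (m⁻¹ * (‖p i j‖ ^ 2 * w0 s)
              + (4 * m⁻¹)⁻¹ * (‖D.X A (y i) (x j) s‖ ^ 2 / w0 s)) :=
            Finset.sum_le_sum fun i _ => Finset.sum_le_sum fun j _ =>
              young_aux (inv_pos.2 hm0) hp
        _ = m⁻¹ * ((∑ j, ∑ i, ‖p i j‖ ^ 2) * w0 s)
              + m * (4⁻¹ * ∑ i, ∑ j, ‖D.X A (y i) (x j) s‖ ^ 2 / w0 s) := by
            simp only [Finset.sum_add_distrib, ← Finset.mul_sum, ← Finset.sum_mul]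
            rw [Finset.sum_comm (f := fun i j => ‖p i j‖ ^ 2), mul_inv, inv_inv]
            ring
        _ ≤ m⁻¹ * ((∑ j, m ^ 2 * ∑ k, ‖(q k j).1 (D.bd s)‖ ^ 2) * w0 s)
              + m * (4⁻¹ * ∑ i, ∑ j, ‖D.X A (y i) (x j) s‖ ^ 2 / w0 s) := by
            gcongr with j _
            exact h1 j
        _ = _ := by
            simp only [← Finset.mul_sum, ← Finset.sum_mul]
            rw [Finset.sum_comm (f := fun i k => ‖(q i k).1 (D.bd s)‖ ^ 2)]
            field_simp
    · have hfq : ∀ i j k, (F i k * q k j) ∈ D.S A := fun i j k => mul_mem (hF i k) (hqS k j)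
      have hc : ∀ i j k, Continuous fun s =>
          (F i k * q k j).1 (D.bd s) * D.X A (y i) (x j) s := fun i j k =>
        ((F i k * q k j).1.continuous.comp D.continuous_bd).mul (continuous_X hA _ _)
      have e0 : (fun s => ∑ i, ∑ j, (∑ k, (F i k).1 (D.bd s) * (q k j).1 (D.bd s))
          * D.X A (y i) (x j) s)
          = fun s => ∑ i, ∑ j, ∑ k, (F i k * q k j).1 (D.bd s) * D.X A (y i) (x j) s := by
        funext s
        simp only [Finset.sum_mul, Prod.fst_mul, ContinuousMap.mul_apply]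
      rw [e0, integral_sum3 hc]
      simp only [fun i j k => S_integral_X hA (hfq i j k) (y i) (x j)]
      have e1 : ∀ i j k, inner ℂ (y i) ((F i k * q k j).2 (x j))
          = inner ℂ (ContinuousLinearMap.adjoint (F i k).2 (y i)) ((q k j).2 (x j)) := by
        intro i j k
        rw [ContinuousLinearMap.adjoint_inner_left]
        rfl
      simp only [e1]
      calc ∑ i, ∑ j, ∑ k, inner ℂ (ContinuousLinearMap.adjoint (F i k).2 (y i))
            ((q k j).2 (x j))
          = ∑ k, ∑ j, inner ℂ (∑ i, ContinuousLinearMap.adjoint (F i k).2 (y i))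
            ((q k j).2 (x j)) := by
            simp only [sum_inner]
            rw [Finset.sum_comm]
            rw [Finset.sum_comm (f := fun k j => ∑ i, inner ℂ
              (ContinuousLinearMap.adjoint (F i k).2 (y i)) ((q k j).2 (x j)))]
            exact Finset.sum_congr rfl fun j _ => Finset.sum_comm
        _ = ∑ k, ∑ j, (κ : ℂ) * ((D.eX A w0 (x k) (x j) / 2 : ℝ) : ℂ) := by
            refine Finset.sum_congr rfl fun k _ => Finset.sum_congr rfl fun j _ => ?_
            rw [hfy k, inner_smul_left, Complex.conj_ofReal, hqL]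
        _ = ((κ * (D.EX A w0 x / 2) : ℝ) : ℂ) := by
            unfold EX
            push_cast
            simp only [← Finset.mul_sum, ← Finset.sum_div]
  · -- test element built from `y`
    have hEy : 0 < D.EX A w0 y := hEx.trans_le hle
    choose q hqS hqL hqb using fun i k => exists_q2 hA hw (y i) (y k)
    refine main_arith (q := q) hA hw hm0 hEy hle le_rfl ?_ (g := fun s =>
      ∑ i, ∑ j, (q i j).1 (D.bd s) * (∑ k, (F j k).1 (D.bd s) * D.X A (y i) (x k) s)) ?_ ?_
    · calc ∑ i, ∑ k, ∫ t in (0:ℝ)..(2*π), ‖(q i k).1 (D.bd t)‖ ^ 2 * w0 t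
          ≤ ∑ i, ∑ k, D.eX A w0 (y i) (y k) / 2 :=
            Finset.sum_le_sum fun i _ => Finset.sum_le_sum fun k _ => hqb i k
        _ = D.EX A w0 y / 2 := by
            unfold EX
            simp only [← Finset.sum_div]
    · intro s
      have hp := hw.pos s
      set p : ι → ι → ℂ := fun i j => ∑ k, (F j k).1 (D.bd s) * D.X A (y i) (x k) s with hpdef
      have h1 : ∀ i, ∑ j, ‖p i j‖ ^ 2 ≤ m ^ 2 * ∑ k, ‖D.X A (y i) (x k) s‖ ^ 2 := fun i =>
        hm (D.bd s) (fun k => D.X A (y i) (x k) s)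
      calc ‖∑ i, ∑ j, (q i j).1 (D.bd s) * p i j‖
          ≤ ∑ i, ∑ j, ‖(q i j).1 (D.bd s)‖ * ‖p i j‖ := by
            refine (norm_sum_le _ _).trans (Finset.sum_le_sum fun i _ => ?_)
            refine (norm_sum_le _ _).trans (Finset.sum_le_sum fun j _ => ?_)
            rw [norm_mul]
        _ ≤ ∑ i, ∑ j, (m * (‖(q i j).1 (D.bd s)‖ ^ 2 * w0 s)
              + (4 * m)⁻¹ * (‖p i j‖ ^ 2 / w0 s)) :=
            Finset.sum_le_sum fun i _ => Finset.sum_le_sum fun j _ => young_aux hm0 hp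
        _ = m * (∑ i, ∑ j, ‖(q i j).1 (D.bd s)‖ ^ 2 * w0 s)
              + (4 * m)⁻¹ * ((∑ i, ∑ j, ‖p i j‖ ^ 2) / w0 s) := by
            simp only [Finset.sum_add_distrib, ← Finset.mul_sum, ← Finset.sum_div]
        _ ≤ m * (∑ i, ∑ j, ‖(q i j).1 (D.bd s)‖ ^ 2 * w0 s)
              + (4 * m)⁻¹ * ((∑ i, m ^ 2 * ∑ k, ‖D.X A (y i) (x k) s‖ ^ 2) / w0 s) := by
            gcongr with i _
            exact h1 i
        _ = _ := by
            simp only [← Finset.mul_sum, ← Finset.sum_div, ← Finset.sum_mul]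
            field_simp
    · have hqf : ∀ i j k, (q i j * F j k) ∈ D.S A := fun i j k => mul_mem (hqS i j) (hF j k)
      have hc : ∀ i j k, Continuous fun s =>
          (q i j * F j k).1 (D.bd s) * D.X A (y i) (x k) s := fun i j k =>
        ((q i j * F j k).1.continuous.comp D.continuous_bd).mul (continuous_X hA _ _)
      have e0 : (fun s => ∑ i, ∑ j, (q i j).1 (D.bd s)
          * (∑ k, (F j k).1 (D.bd s) * D.X A (y i) (x k) s))
          = fun s => ∑ i, ∑ j, ∑ k, (q i j * F j k).1 (D.bd s) * D.X A (y i) (x k) s := by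
        funext s
        simp only [Finset.mul_sum, Prod.fst_mul, ContinuousMap.mul_apply, mul_assoc]
      rw [e0, integral_sum3 hc]
      simp only [fun i j k => S_integral_X hA (hqf i j k) (y i) (x k)]
      have e1 : ∀ i j k, inner ℂ (y i) ((q i j * F j k).2 (x k))
          = inner ℂ (y i) ((q i j).2 ((F j k).2 (x k))) := fun i j k => rfl
      simp only [e1]
      calc ∑ i, ∑ j, ∑ k, inner ℂ (y i) ((q i j).2 ((F j k).2 (x k)))
          = ∑ i, ∑ j, inner ℂ (y i) ((q i j).2 (∑ k, (F j k).2 (x k))) := by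
            simp only [map_sum, inner_sum]
        _ = ∑ i, ∑ j, (κ : ℂ) * ((D.eX A w0 (y i) (y j) / 2 : ℝ) : ℂ) := by
            refine Finset.sum_congr rfl fun i _ => Finset.sum_congr rfl fun j _ => ?_
            rw [hfx j, map_smul, inner_smul_right, hqL]
        _ = ((κ * (D.EX A w0 y / 2) : ℝ) : ℂ) := by
            unfold EX
            push_cast
            simp only [← Finset.mul_sum, ← Finset.sum_div]

end Dom

end Vale.Agent.P123
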