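import Mathlib
import Vale.Agent.P123.H686.Mat1
import Vale.Agent.P123.H686.Mat0

/-! # P123: the matrix-valued inequality, finite dimension, compression, reduction -/

namespace Vale.Agent.P123.H686
open Complex MeasureTheory Set Filter Topology Polynomial
open scoped Real ComplexConjugate

section basic
variable {H : Type*} [NormedAddCommGroup H] [InnerProductSpace ℂ H]

theorem blockOp_apply {n : ℕ} (T : Fin n → Fin n → (H →L[ℂ] H)) (x : PiLp 2 (fun _ : Fin n => H))
    (i : Fin n) : blockOp T x i = ∑ j, T i j (x j) := by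
  simp [blockOp]

omit [InnerProductSpace ℂ H] in
theorem norm_sq_eq' {n : ℕ} (x : PiLp 2 (fun _ : Fin n => H)) : ‖x‖ ^ 2 = ∑ i, ‖x i‖ ^ 2 :=
  PiLp.norm_sq_eq_of_L2 _ x

theorem adjoint_of_norm_attained {E : Type*} [NormedAddCommGroup E] [InnerProductSpace ℂ E]
    [CompleteSpace E] {T : E →L[ℂ] E} {x y : E} (hx : ‖x‖ = 1)
    (hTy : T x = (‖T‖ : ℂ) • y) (hy1 : ‖y‖ = 1) :
    ContinuousLinearMap.adjoint T y = (‖T‖ : ℂ) • x := by
  have h1 : ‖ContinuousLinearMap.adjoint T y‖ ≤ ‖T‖ := by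
    have := (ContinuousLinearMap.adjoint T).le_opNorm y
    rwa [hy1, mul_one, LinearIsometryEquiv.norm_map] at this
  have h2 : inner ℂ x (ContinuousLinearMap.adjoint T y) = (‖T‖ : ℂ) := by
    rw [ContinuousLinearMap.adjoint_inner_right, hTy, inner_smul_left, Complex.conj_ofReal,
      inner_self_eq_norm_sq_to_K, hy1]
    simp only [coe_algebraMap, ofReal_one, one_pow, mul_one]
  have h3 : ‖ContinuousLinearMap.adjoint T y - (‖T‖ : ℂ) • x‖ ^ 2 ≤ 0 := by
    rw [@norm_sub_sq ℂ]
    have h4 : inner ℂ (ContinuousLinearMap.adjoint T y) ((‖T‖ : ℂ) • x)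
        = (‖T‖ : ℂ) * (‖T‖ : ℂ) := by
      rw [inner_smul_right, ← inner_conj_symm, h2, Complex.conj_ofReal]
    rw [h4, norm_smul, hx, Complex.norm_real, norm_norm]
    have h5 : RCLike.re ((‖T‖ : ℂ) * (‖T‖ : ℂ)) = ‖T‖ ^ 2 := by
      rw [← Complex.ofReal_mul, RCLike.re_eq_complex_re, Complex.ofReal_re]; ring
    rw [h5]
    have h6 := pow_le_pow_left₀ (norm_nonneg _) h1 2
    linarith only [h6]
  have h7 : ‖ContinuousLinearMap.adjoint T y - (‖T‖ : ℂ) • x‖ = 0 := by
    have := sq_nonneg ‖ContinuousLinearMap.adjoint T y - (‖T‖ : ℂ) • x‖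
    have h8 : ‖ContinuousLinearMap.adjoint T y - (‖T‖ : ℂ) • x‖ ^ 2 = 0 := le_antisymm h3 this
    exact pow_eq_zero_iff (two_ne_zero) |>.1 h8
  exact sub_eq_zero.1 (norm_eq_zero.1 h7)

/-- components of the adjoint of a block operator -/
theorem adjoint_blockOp_apply [CompleteSpace H] {n : ℕ} (T : Fin n → Fin n → (H →L[ℂ] H))
    (y : PiLp 2 (fun _ : Fin n => H)) (k : Fin n) :
    ContinuousLinearMap.adjoint (blockOp T) y k
      = ∑ i, ContinuousLinearMap.adjoint (T i k) (y i) := by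
  refine ext_inner_left ℂ fun u => ?_
  have h1 : inner ℂ (PiLp.single 2 k u : PiLp 2 (fun _ : Fin n => H))
      (ContinuousLinearMap.adjoint (blockOp T) y)
      = inner ℂ u (ContinuousLinearMap.adjoint (blockOp T) y k) := by
    rw [PiLp.inner_apply, Finset.sum_eq_single k]
    · rw [PiLp.single_eq_same]
    · intro j _ hj
      rw [PiLp.single_eq_of_ne _ hj, inner_zero_left]
    · intro h; exact absurd (Finset.mem_univ k) h
  rw [← h1, ContinuousLinearMap.adjoint_inner_right, PiLp.inner_apply, inner_sum]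
  refine Finset.sum_congr rfl fun i _ => ?_
  rw [blockOp_apply, ContinuousLinearMap.adjoint_inner_right, Finset.sum_eq_single k]
  · rw [PiLp.single_eq_same]
  · intro j _ hj
    rw [PiLp.single_eq_of_ne _ hj, map_zero]
  · intro h; exact absurd (Finset.mem_univ k) h

end basic

section fin
variable {H : Type*} [NormedAddCommGroup H] [InnerProductSpace ℂ H] {D : Dom}

/-- pointwise bound of a matrix of polynomials -/
def MatBound {n : ℕ} (K : Set ℂ) (P : Matrix (Fin n) (Fin n) ℂ[X]) (m : ℝ) : Prop :=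
  ∀ z ∈ K, ∀ v : Fin n → ℂ, ∑ i, ‖∑ k, (P i k).eval z * v k‖ ^ 2 ≤ m ^ 2 * ∑ k, ‖v k‖ ^ 2

theorem crouzeix_fin_mat [FiniteDimensional ℂ H] {A : H →L[ℂ] H} {η : ℝ} (hA : D.Inside A η)
    {n : ℕ} (P : Matrix (Fin n) (Fin n) ℂ[X]) {m : ℝ} (hm : 0 < m) (hP : MatBound D.K P m) :
    ‖blockOp fun i j => aeval A (P i j)‖ ≤ 2 * m := by
  have : CompleteSpace H := FiniteDimensional.complete ℂ H
  set T := blockOp fun i j => aeval A (P i j) with hTdef
  by_cases hT : T = 0
  · rw [hT, norm_zero]; positivity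
  obtain ⟨w0, hw⟩ := Dom.exists_equil D
  choose F hFS hF1 hF2 using fun i j => Dom.poly_mem_S (D := D) A (P i j)
  obtain ⟨x, hx, hTx⟩ := Dom.exists_norm_attained T hT
  have hκ : 0 < ‖T‖ := norm_pos_iff.2 hT
  have hκ' : (‖T‖ : ℂ) ≠ 0 := by exact_mod_cast hκ.ne'
  set y : PiLp 2 (fun _ : Fin n => H) := (‖T‖ : ℂ)⁻¹ • T x with hy
  have hTy : T x = (‖T‖ : ℂ) • y := by
    rw [hy, smul_smul, mul_inv_cancel₀ hκ', one_smul]
  have hy1 : ‖y‖ = 1 := by
    rw [hy, norm_smul, norm_inv, Complex.norm_real, norm_norm, hTx, inv_mul_cancel₀ hκ.ne']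
  have hadj := adjoint_of_norm_attained hx hTy hy1
  have hx0 : (fun i => x i) ≠ (0 : Fin n → H) := by
    intro h
    have h1 : ‖x‖ ^ 2 = 0 := by
      rw [norm_sq_eq']
      refine Finset.sum_eq_zero fun i _ => ?_
      rw [show x i = 0 from congrFun h i, norm_zero]; ring
    rw [hx] at h1; norm_num at h1
  refine Dom.crouzeix_dom_mat hA hw hFS hm (fun z v => ?_) (x := fun i => x i)
    (y := fun i => y i) hx0 (fun i => ?_) (fun k => ?_)
  · have := hP z z.2 v
    simpa only [hF1] using this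
  · have h1 := congrArg (fun u : PiLp 2 (fun _ : Fin n => H) => u i) hTy
    simp only [PiLp.smul_apply] at h1
    rw [← h1, hTdef, blockOp_apply]
    simp only [hF2]
  · have h1 := congrArg (fun u : PiLp 2 (fun _ : Fin n => H) => u k) hadj
    simp only [PiLp.smul_apply] at h1
    rw [← h1, hTdef, adjoint_blockOp_apply]
    simp only [hF2]

/-- compression to the span of the orbits -/
theorem crouzeix_gen_mat {A : H →L[ℂ] H} {η : ℝ} (hA : D.Inside A η)
    {n : ℕ} (P : Matrix (Fin n) (Fin n) ℂ[X]) {m : ℝ} (hm : 0 < m) (hP : MatBound D.K P m) :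
    ‖blockOp fun i j => aeval A (P i j)‖ ≤ 2 * m := by
  refine (blockOp fun i j => aeval A (P i j)).opNorm_le_bound (by positivity) fun x => ?_
  set d : ℕ := Finset.univ.sup fun i => Finset.univ.sup fun j => (P i j).natDegree with hd
  have hdeg : ∀ i j, (P i j).natDegree ≤ d := fun i j =>
    (Finset.le_sup (f := fun j => (P i j).natDegree) (Finset.mem_univ j)).trans
      (Finset.le_sup (f := fun i => Finset.univ.sup fun j => (P i j).natDegree)
        (Finset.mem_univ i))
  set V : Submodule ℂ H := Submodule.span ℂ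
    ((fun p : ℕ × Fin n => (A ^ p.1) (x p.2)) '' (Set.Iic d ×ˢ Set.univ)) with hV
  have : FiniteDimensional ℂ V :=
    FiniteDimensional.span_of_finite ℂ (((Set.finite_Iic _).prod Set.finite_univ).image _)
  have : CompleteSpace V := FiniteDimensional.complete ℂ V
  have hmem : ∀ k, k ≤ d → ∀ j, (A ^ k) (x j) ∈ V := fun k hk j =>
    Submodule.subset_span ⟨(k, j), ⟨hk, Set.mem_univ _⟩, rfl⟩
  set B : V →L[ℂ] V := V.orthogonalProjectionOnto ∘L A ∘L V.subtypeL with hB
  have hBin : ∀ v : V, inner ℂ v (B v) = inner ℂ (v : H) (A v) := by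
    intro v
    have h1 : B v = V.orthogonalProjectionOnto (A v) := rfl
    rw [h1]
    exact Submodule.inner_orthogonalProjectionOnto_eq_of_mem_left v (A v)
  have hBI : D.Inside B η := by
    refine ⟨hA.1, fun s v => ?_⟩
    rw [hBin]
    have := hA.2 s (v : H)
    rwa [Submodule.coe_norm]
  have hx0 : ∀ j, x j ∈ V := fun j => by
    simpa only [pow_zero, one_apply_eq_self] using hmem 0 (Nat.zero_le _) j
  have hpow : ∀ j k, k ≤ d → (((B ^ k) ⟨x j, hx0 j⟩ : V) : H) = (A ^ k) (x j) := by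
    intro j k
    induction k with
    | zero => intro _; simp only [pow_zero, one_apply_eq_self]
    | succ k ih =>
      intro hk
      have h1 := ih (by omega)
      rw [pow_succ', pow_succ']
      have h2 : (B * B ^ k) ⟨x j, hx0 j⟩ = B ((B ^ k) ⟨x j, hx0 j⟩) := rfl
      have h3 : (A * A ^ k) (x j) = A ((A ^ k) (x j)) := rfl
      rw [h2, h3]
      have h4 : B ((B ^ k) ⟨x j, hx0 j⟩) = V.orthogonalProjectionOnto (A ((A ^ k) (x j))) := by
        rw [← h1]
        rfl
      rw [h4]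
      have h5 : A ((A ^ k) (x j)) ∈ V := by
        have := hmem (k+1) hk j
        rwa [pow_succ'] at this
      have h6 := Submodule.orthogonalProjectionOnto_mem_subspace_eq_self (K := V)
        ⟨A ((A ^ k) (x j)), h5⟩
      simpa only [pow_apply_eq_iterate, Submodule.coe_orthogonalProjectionOnto_apply] using
        congrArg (Subtype.val) h6
  have hPB : ∀ i j, ((aeval B (P i j) ⟨x j, hx0 j⟩ : V) : H) = aeval A (P i j) (x j) := by
    intro i j
    rw [aeval_eq_sum_range, aeval_eq_sum_range]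
    simp only [sum_apply, smul_apply]
    rw [Submodule.coe_sum]
    refine Finset.sum_congr rfl fun k hk => ?_
    rw [Finset.mem_range] at hk
    rw [Submodule.coe_smul, hpow j k (by have := hdeg i j; omega)]
  have h := crouzeix_fin_mat hBI P hm hP
  set x' : PiLp 2 (fun _ : Fin n => V) := WithLp.toLp 2 (fun j => ⟨x j, hx0 j⟩) with hx'
  have hn : ‖x'‖ = ‖x‖ := by
    have h1 : ‖x'‖ ^ 2 = ‖x‖ ^ 2 := by
      rw [norm_sq_eq', norm_sq_eq']
      rfl
    exact (pow_left_inj₀ (norm_nonneg _) (norm_nonneg _) two_ne_zero).1 h1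
  have hn2 : ‖(blockOp fun i j => aeval B (P i j)) x'‖
      = ‖(blockOp fun i j => aeval A (P i j)) x‖ := by
    have h1 : ‖(blockOp fun i j => aeval B (P i j)) x'‖ ^ 2
        = ‖(blockOp fun i j => aeval A (P i j)) x‖ ^ 2 := by
      rw [norm_sq_eq', norm_sq_eq']
      refine Finset.sum_congr rfl fun i _ => ?_
      have h2 : ((∑ j, (aeval B (P i j)) (x' j) : V) : H) = ∑ j, (aeval A (P i j)) (x j) := by
        rw [Submodule.coe_sum]
        exact Finset.sum_congr rfl fun j _ => hPB i j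
      rw [blockOp_apply, blockOp_apply, ← h2, Submodule.norm_coe]
    exact (pow_left_inj₀ (norm_nonneg _) (norm_nonneg _) two_ne_zero).1 h1
  rw [← hn2, ← hn]
  exact ((blockOp fun i j => aeval B (P i j)).le_opNorm x').trans
    (mul_le_mul_of_nonneg_right h (norm_nonneg _))

end fin

end Vale.Agent.P123.H686
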