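import Mathlib
import Vale.Agent.P123.H686.Mat2

/-! # P123: reduction to smooth convex domains, matrix-valued form -/

namespace Vale.Agent.P123.H686
open Complex MeasureTheory Set Filter Topology Polynomial
open scoped Real ComplexConjugate

section red
variable {H : Type*} [NormedAddCommGroup H] [InnerProductSpace ℂ H]

theorem le_sSup_closure {W : Set ℂ} {M : ℝ} (hW : ∀ w ∈ W, ‖w‖ ≤ M) {N : ℂ → ℝ}
    (hN : Continuous N) {v : ℂ} (hv : v ∈ closure W) : N v ≤ sSup (N '' W) := by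
  have hbdd : BddAbove (N '' W) := by
    have hcomp : IsCompact (Metric.closedBall (0:ℂ) M) := isCompact_closedBall _ _
    have hb := (hcomp.image hN).bddAbove
    refine hb.mono (image_mono fun w hw => ?_)
    simpa using hW w hw
  have hcl : closure W ⊆ {z : ℂ | N z ≤ sSup (N '' W)} := by
    refine closure_minimal (fun w hw => le_csSup hbdd ⟨w, hw, rfl⟩) ?_
    exact isClosed_le hN continuous_const
  exact hcl hv

theorem exists_delta_cont {N : ℂ → ℝ} (hN : Continuous N) (M : ℝ) {ε : ℝ} (hε : 0 < ε) :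
    ∃ δ > 0, δ ≤ 1 ∧ ∀ z v : ℂ, ‖v‖ ≤ M → ‖z - v‖ ≤ δ → N z ≤ N v + ε := by
  have hcomp : IsCompact (Metric.closedBall (0:ℂ) (M + 1)) := isCompact_closedBall _ _
  have huc : UniformContinuousOn N (Metric.closedBall (0:ℂ) (M + 1)) :=
    hcomp.uniformContinuousOn_of_continuous hN.continuousOn
  rw [Metric.uniformContinuousOn_iff] at huc
  obtain ⟨δ, hδ, hd⟩ := huc ε hε
  refine ⟨min (δ / 2) 1, by positivity, min_le_right _ _, fun z v hv hzv => ?_⟩
  have h1 : ‖z - v‖ ≤ 1 := hzv.trans (min_le_right _ _)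
  have h2 : ‖z - v‖ < δ := by
    have := hzv.trans (min_le_left _ _)
    linarith
  have hz : z ∈ Metric.closedBall (0:ℂ) (M + 1) := by
    rw [mem_closedBall_zero_iff]
    calc ‖z‖ = ‖v + (z - v)‖ := by congr 1; ring
      _ ≤ ‖v‖ + ‖z - v‖ := norm_add_le _ _
      _ ≤ M + 1 := add_le_add hv h1
  have hv' : v ∈ Metric.closedBall (0:ℂ) (M + 1) := by
    rw [mem_closedBall_zero_iff]; linarith
  have h3 := hd z hz v hv' (by rwa [dist_eq_norm])
  rw [Real.dist_eq] at h3
  have := le_abs_self (N z - N v)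
  linarith

/-- outer approximation when `0` is in the numerical range -/
theorem exists_dom_cont (A : H →L[ℂ] H) (h0 : (0:ℂ) ∈ numRange A) {N : ℂ → ℝ}
    (hN : Continuous N) {ε : ℝ} (hε : 0 < ε) :
    ∃ (D : Dom) (eta : ℝ), D.Inside A eta ∧ ∀ z ∈ D.K, N z ≤ sSup (N '' numRange A) + ε := by
  have hW : ∀ w ∈ numRange A, ‖w‖ ≤ ‖A‖ := fun w hw => norm_le_of_mem_numRange A hw
  obtain ⟨δ, hδ, hδ1, hd⟩ := exists_delta_cont hN ‖A‖ hε
  set e : ℝ := δ / (8 * (‖A‖ + 1)) with he
  have hepos : 0 < e := by positivity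
  set eta : ℝ := δ / 2 with heta
  have hetapos : 0 < eta := by positivity
  refine ⟨outerDom (numRange A) ‖A‖ e eta h0 hW hepos hetapos, eta, ⟨hetapos, ?_⟩, ?_⟩
  · intro s x
    by_cases hx : x = 0
    · subst hx; simp
    have h1 := le_suppFn hW (inner_mem_of_ne_zero A hx) s
    have h2 := outerDom_ge h0 hW hepos hetapos s
    have hn : 0 < ‖x‖ ^ 2 := by positivity
    have h3 : (ee (-s) * inner ℂ x (A x)).re =
        (ee (-s) * (inner ℂ x (A x) / ((‖x‖ : ℂ) ^ 2))).re * ‖x‖ ^ 2 := by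
      have hn' : ((‖x‖ : ℂ) ^ 2) ≠ 0 := by
        exact_mod_cast hn.ne'
      have h4 : ee (-s) * inner ℂ x (A x) =
          ((‖x‖ ^ 2 : ℝ) : ℂ) * (ee (-s) * (inner ℂ x (A x) / ((‖x‖ : ℂ) ^ 2))) := by
        push_cast
        rw [mul_left_comm, mul_div_cancel₀ _ hn']
      rw [h4, Complex.re_ofReal_mul]
      ring
    rw [h3]
    gcongr
    linarith
  · intro z hz
    have hz' : ∀ s, (ee (-s) * z).re ≤ suppFn (numRange A) s + δ := by
      intro s
      have h1 := hz s
      have h2 := outerDom_le h0 hW hepos hetapos s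
      have h3 : 4 * e * ‖A‖ + eta ≤ δ := by
        have h4 : 4 * e * ‖A‖ ≤ δ / 2 := by
          rw [he]
          have : 4 * (δ / (8 * (‖A‖ + 1))) * ‖A‖ = (δ / 2) * (‖A‖ / (‖A‖ + 1)) := by
            field_simp; ring
          rw [this]
          have h5 : ‖A‖ / (‖A‖ + 1) ≤ 1 := by
            rw [div_le_one (by positivity)]; linarith
          have h6 : 0 ≤ δ / 2 := by positivity
          nlinarith
        linarith
      linarith
    obtain ⟨v, hv, hzv⟩ := near_of_support ⟨0, h0⟩ (convex_numRange A) hW hδ.le hz'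
    have hvM : ‖v‖ ≤ ‖A‖ := by
      have hcl : closure (numRange A) ⊆ Metric.closedBall (0:ℂ) ‖A‖ := by
        refine closure_minimal (fun w hw => ?_) Metric.isClosed_closedBall
        simpa using hW w hw
      simpa using hcl hv
    have h1 := hd z v hvM hzv
    have h2 := le_sSup_closure hW hN hv
    linarith

/-- the operator norm of the value of a matrix polynomial -/
noncomputable def nrm {n : ℕ} (P : Matrix (Fin n) (Fin n) ℂ[X]) (z : ℂ) : ℝ :=
  ‖Matrix.toEuclideanCLM (𝕜 := ℂ) (P.map (eval z))‖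

theorem continuous_nrm {n : ℕ} (P : Matrix (Fin n) (Fin n) ℂ[X]) : Continuous (nrm P) := by
  unfold nrm
  have h1 : Continuous fun z : ℂ => P.map (eval z) := by
    refine continuous_matrix fun i j => ?_
    simp only [Matrix.map_apply]
    exact (P i j).continuous
  have h2 : Continuous fun M : Matrix (Fin n) (Fin n) ℂ => Matrix.toEuclideanCLM (𝕜 := ℂ) M := by
    let L : Matrix (Fin n) (Fin n) ℂ →ₗ[ℂ]
        (EuclideanSpace ℂ (Fin n) →L[ℂ] EuclideanSpace ℂ (Fin n)) :=
      { toFun := fun M => Matrix.toEuclideanCLM (𝕜 := ℂ) M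
        map_add' := fun a b => map_add _ a b
        map_smul' := fun a b => map_smul _ a b }
    exact L.continuous_of_finiteDimensional
  exact (h2.comp h1).norm

theorem sum_sq_le_nrm {n : ℕ} (M : Matrix (Fin n) (Fin n) ℂ) (v : Fin n → ℂ) :
    ∑ i, ‖∑ k, M i k * v k‖ ^ 2 ≤ ‖Matrix.toEuclideanCLM (𝕜 := ℂ) M‖ ^ 2 * ∑ k, ‖v k‖ ^ 2 := by
  have h1 := (Matrix.toEuclideanCLM (𝕜 := ℂ) M).le_opNorm (WithLp.toLp 2 v)
  have h2 := pow_le_pow_left₀ (norm_nonneg _) h1 2
  rw [mul_pow, EuclideanSpace.norm_sq_eq, EuclideanSpace.norm_sq_eq] at h2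
  exact h2

theorem matBound_of_nrm {n : ℕ} {K : Set ℂ} {P : Matrix (Fin n) (Fin n) ℂ[X]} {m : ℝ}
    (h : ∀ z ∈ K, nrm P z ≤ m) : MatBound K P m := by
  intro z hz v
  refine (sum_sq_le_nrm (P.map (eval z)) v).trans ?_
  have h1 := h z hz
  have h0 : 0 ≤ nrm P z := norm_nonneg _
  unfold nrm at h1 h0
  gcongr

theorem complete_bound [CompleteSpace H] [Nontrivial H] {n : ℕ} (A : H →L[ℂ] H)
    (P : Matrix (Fin n) (Fin n) ℂ[X]) : normAt A P ≤ 2 * supOnW A P := by
  obtain ⟨c, x, hx, hcx⟩ := numRange_nonempty A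
  set B : H →L[ℂ] H := A - algebraMap ℂ (H →L[ℂ] H) c with hB
  set Q : Matrix (Fin n) (Fin n) ℂ[X] := P.map (fun p => p.comp (Polynomial.X + Polynomial.C c))
    with hQ
  have hBv : ∀ v : H, ‖v‖ = 1 → inner ℂ v (B v) = inner ℂ v (A v) - c := by
    intro v hv
    rw [hB]
    simp only [sub_apply, ContinuousLinearMap.algebraMap_apply, inner_sub_right, inner_smul_right]
    rw [inner_self_eq_norm_sq_to_K, hv]; simp
  have hQe : ∀ z : ℂ, Q.map (eval z) = P.map (eval (z + c)) := by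
    intro z
    ext i j
    simp [hQ]
  have hBW : nrm Q '' numRange B = nrm P '' numRange A := by
    ext r
    constructor
    · rintro ⟨_, ⟨v, hv, rfl⟩, rfl⟩
      refine ⟨inner ℂ v (A v), ⟨v, hv, rfl⟩, ?_⟩
      unfold nrm
      rw [hQe, hBv v hv, sub_add_cancel]
    · rintro ⟨_, ⟨v, hv, rfl⟩, rfl⟩
      refine ⟨inner ℂ v (B v), ⟨v, hv, rfl⟩, ?_⟩
      unfold nrm
      rw [hQe, hBv v hv, sub_add_cancel]
  have hBQ : (fun i j => aeval B (Q i j)) = fun i j => aeval A (P i j) := by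
    funext i j
    rw [hQ, Matrix.map_apply, Polynomial.aeval_comp]
    congr 1
    simp [hB]
  have h0 : (0:ℂ) ∈ numRange B := ⟨x, hx, by rw [hBv x hx, hcx, sub_self]⟩
  have hs : 0 ≤ sSup (nrm P '' numRange A) := by
    apply Real.sSup_nonneg
    rintro _ ⟨z, -, rfl⟩
    exact norm_nonneg _
  have hgoal : ‖blockOp fun i j => aeval A (P i j)‖ ≤ 2 * sSup (nrm P '' numRange A) := by
    refine le_of_forall_pos_le_add fun ε hε => ?_
    obtain ⟨D, eta, hAD, hPD⟩ := exists_dom_cont B h0 (continuous_nrm Q) (half_pos hε)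
    rw [hBW] at hPD
    have h1 := crouzeix_gen_mat hAD Q (m := sSup (nrm P '' numRange A) + ε / 2) (by positivity)
      (matBound_of_nrm hPD)
    rw [hBQ] at h1
    linarith
  exact hgoal

end red

end Vale.Agent.P123.H686
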