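import Mathlib
import Vale.Agent.P123.H686.Mat3
import Vale.Agent.P123.H880.Rational

/-! # P123: rational matrix functions and optimality of the constant -/

namespace Vale.Agent.P123.H686
open Complex Set Filter Topology Polynomial

section rat
variable {H : Type*} [NormedAddCommGroup H] [InnerProductSpace ℂ H]

theorem blockOp_add {n : ℕ} (T S : Fin n → Fin n → (H →L[ℂ] H)) :
    (blockOp fun i j => T i j + S i j) = blockOp T + blockOp S := by
  ext x i
  simp only [blockOp_apply, add_apply, PiLp.add_apply, Finset.sum_add_distrib]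

theorem norm_blockOp_mul_le {n : ℕ} (T : Fin n → Fin n → (H →L[ℂ] H)) (C : H →L[ℂ] H) :
    ‖blockOp fun i j => T i j * C‖ ≤ ‖blockOp T‖ * ‖C‖ := by
  refine ContinuousLinearMap.opNorm_le_bound _ (by positivity) fun x => ?_
  set x' : PiLp 2 (fun _ : Fin n => H) := WithLp.toLp 2 (fun j => C (x j)) with hx'
  have e : (blockOp fun i j => T i j * C) x = blockOp T x' := by
    ext i
    simp only [blockOp_apply]
    rfl
  have h1 : ‖x'‖ ≤ ‖C‖ * ‖x‖ := by
    apply abs_le_of_sq_le_sq' _ (by positivity) |>.2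
    rw [mul_pow, norm_sq_eq', norm_sq_eq', Finset.mul_sum]
    refine Finset.sum_le_sum fun i _ => ?_
    rw [← mul_pow]
    exact pow_le_pow_left₀ (norm_nonneg _) (C.le_opNorm _) 2
  rw [e, mul_assoc]
  exact ((blockOp T).le_opNorm x').trans (by gcongr)

/-- `n × n` matrices of rational functions: operator norm of the values, numerators `P`, common
denominator `Q` -/
theorem nrm_mul {n : ℕ} (P : Matrix (Fin n) (Fin n) ℂ[X]) (r : ℂ[X]) (z : ℂ) :
    nrm (P.map fun p => p * r) z = ‖r.eval z‖ * nrm P z := by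
  unfold nrm
  have e : (P.map fun p => p * r).map (eval z) = r.eval z • P.map (eval z) := by
    ext i j
    simp [mul_comm]
  rw [e, map_smul, norm_smul]

theorem nrm_div {n : ℕ} (P : Matrix (Fin n) (Fin n) ℂ[X]) (Q : ℂ[X]) (z : ℂ) :
    ‖Matrix.toEuclideanCLM (𝕜 := ℂ) (P.map fun p => p.eval z / Q.eval z)‖
      = ‖(Q.eval z)⁻¹‖ * nrm P z := by
  unfold nrm
  have e : (P.map fun p => p.eval z / Q.eval z) = (Q.eval z)⁻¹ • P.map (eval z) := by
    ext i j
    simp [div_eq_inv_mul]
  rw [e, map_smul, norm_smul]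

theorem complete_rational_bound [CompleteSpace H] [Nontrivial H] {n : ℕ} (A : H →L[ℂ] H)
    (P : Matrix (Fin n) (Fin n) ℂ[X]) (Q : ℂ[X])
    (hQ : ∀ z ∈ closure (numRange A), Q.eval z ≠ 0) :
    ∃ B : H →L[ℂ] H, B * aeval A Q = 1 ∧ aeval A Q * B = 1 ∧
      ‖blockOp fun i j => aeval A (P i j) * B‖ ≤ 2 * sSup ((fun z =>
        ‖Matrix.toEuclideanCLM (𝕜 := ℂ) (P.map fun p => p.eval z / Q.eval z)‖) '' numRange A) := by
  obtain ⟨B, hB1, hB2, -⟩ := H880.rational_bound A 1 Q hQ
  refine ⟨B, hB1, hB2, ?_⟩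
  simp only [nrm_div]
  set K := closure (numRange A) with hKdef
  have hK : IsCompact K := H880.compact_cl A
  have hc : Convex ℝ K := (convex_numRange A).closure
  have hne : (numRange A).Nonempty := by
    obtain ⟨x, hx⟩ := exists_norm_eq H zero_le_one
    exact ⟨_, x, hx, rfl⟩
  obtain ⟨z0, hz0⟩ := hne.closure
  obtain ⟨MQ, hMQ⟩ := hK.exists_bound_of_continuousOn (Q.continuous.continuousOn)
  obtain ⟨MP, hMP⟩ := hK.exists_bound_of_continuousOn ((continuous_nrm P).continuousOn)
  have hMQ0 : 0 ≤ MQ := (norm_nonneg _).trans (hMQ z0 hz0)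
  have hMP0 : 0 ≤ MP := (norm_nonneg _).trans (hMP z0 hz0)
  have hinv := H880.PolyLim.inv_poly hK hc Q hQ
  set S : ℝ := sSup ((fun z => ‖(Q.eval z)⁻¹‖ * nrm P z) '' numRange A) with hS
  have hbdd : BddAbove ((fun z => ‖(Q.eval z)⁻¹‖ * nrm P z) '' numRange A) := by
    have hcont : ContinuousOn (fun z => ‖(Q.eval z)⁻¹‖ * nrm P z) K :=
      ((Q.continuous.continuousOn.inv₀ hQ).norm).mul (continuous_nrm P).continuousOn
    exact ((hK.image_of_continuousOn hcont).bddAbove).mono (Set.image_mono subset_closure)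
  have hfin : ∀ ε : ℝ, 0 < ε → ‖blockOp fun i j => aeval A (P i j) * B‖
      ≤ 2 * S + ε * (2 * MP + normAt A P * (‖B‖ * (2 * MQ))) := by
    intro ε hε
    obtain ⟨r, hr⟩ := hinv ε hε
    have hr2 : ‖1 - aeval A Q * aeval A r‖ ≤ 2 * (MQ * ε) := by
      have e : 1 - aeval A Q * aeval A r = aeval A (1 - Q * r) := by simp
      rw [e]
      apply H880.bound_of_le
      intro z hz
      have h1 : (1 - Q * r).eval z = -(Q.eval z * (r.eval z - (Q.eval z)⁻¹)) := by
        rw [eval_sub, eval_mul, eval_one, mul_sub, mul_inv_cancel₀ (hQ z hz)]; ring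
      rw [h1, norm_neg, norm_mul]
      exact mul_le_mul (hMQ z hz) (hr z hz) (norm_nonneg _) hMQ0
    have hBr : ‖B - aeval A r‖ ≤ ‖B‖ * (2 * (MQ * ε)) := by
      have e : B - aeval A r = B * (1 - aeval A Q * aeval A r) := by
        rw [mul_sub, mul_one, ← mul_assoc, hB1, one_mul]
      rw [e]
      exact (norm_mul_le _ _).trans (by gcongr)
    have e1 : (blockOp fun i j => aeval A (P i j) * B)
        = (blockOp fun i j => aeval A ((P.map fun p => p * r) i j))
          + blockOp fun i j => aeval A (P i j) * (B - aeval A r) := by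
      rw [← blockOp_add]
      congr 1
      funext i j
      simp only [Matrix.map_apply, map_mul]
      rw [mul_sub]; abel
    have h1 : ‖blockOp fun i j => aeval A ((P.map fun p => p * r) i j)‖
        ≤ 2 * (S + ε * MP) := by
      have h2 := complete_bound A (P.map fun p => p * r)
      have h3 : supOnW A (P.map fun p => p * r) ≤ S + ε * MP := by
        apply csSup_le (hne.image _)
        rintro _ ⟨z, hz, rfl⟩
        have hzK : z ∈ K := subset_closure hz
        have h4 : nrm (P.map fun p => p * r) z ≤ S + ε * MP := by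
          rw [nrm_mul]
          have h5 : ‖r.eval z‖ ≤ ‖(Q.eval z)⁻¹‖ + ε := by
            calc ‖r.eval z‖ = ‖(Q.eval z)⁻¹ + (r.eval z - (Q.eval z)⁻¹)‖ := by congr 1; ring
              _ ≤ _ := (norm_add_le _ _).trans (by gcongr; exact hr z hzK)
          have h6 : 0 ≤ nrm P z := norm_nonneg _
          have h7 : nrm P z ≤ MP := (le_abs_self _).trans (hMP z hzK)
          calc ‖r.eval z‖ * nrm P z ≤ (‖(Q.eval z)⁻¹‖ + ε) * nrm P z := by gcongr
            _ = ‖(Q.eval z)⁻¹‖ * nrm P z + ε * nrm P z := by ring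
            _ ≤ S + ε * MP := by
              gcongr
              exact le_csSup hbdd ⟨z, hz, rfl⟩
        exact h4
      unfold normAt at h2
      exact h2.trans (by gcongr)
    rw [e1]
    refine (norm_add_le _ _).trans ?_
    have h2 := norm_blockOp_mul_le (fun i j => aeval A (P i j)) (B - aeval A r)
    have h3 : ‖blockOp fun i j => aeval A (P i j)‖ * ‖B - aeval A r‖
        ≤ normAt A P * (‖B‖ * (2 * (MQ * ε))) := by
      unfold normAt
      gcongr
    calc _ ≤ 2 * (S + ε * MP) + normAt A P * (‖B‖ * (2 * (MQ * ε))) :=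
          add_le_add h1 (h2.trans h3)
      _ = _ := by ring
  refine le_of_forall_pos_le_add fun δ hδ => ?_
  have hop : 0 ≤ normAt A P := norm_nonneg _
  set N : ℝ := 2 * MP + normAt A P * (‖B‖ * (2 * MQ)) + 1 with hN
  have hN0 : 0 < N := by positivity
  refine (hfin (δ / N) (by positivity)).trans ?_
  have h4 : δ / N * (2 * MP + normAt A P * (‖B‖ * (2 * MQ))) ≤ δ := by
    rw [div_mul_eq_mul_div, div_le_iff₀ hN0]
    nlinarith
  linarith

/-- the scalar inequality is contained in the matrix-valued one -/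
theorem normAt_nonneg {n : ℕ} (A : H →L[ℂ] H) (P : Matrix (Fin n) (Fin n) ℂ[X]) :
    0 ≤ normAt A P := by
  exact norm_nonneg (blockOp fun i j => aeval A (P i j))

theorem aeval_le_normAt {n : ℕ} (hn : 1 ≤ n) (A : H →L[ℂ] H) (P : ℂ[X]) :
    ‖aeval A P‖ ≤ normAt A (P • (1 : Matrix (Fin n) (Fin n) ℂ[X])) := by
  refine ContinuousLinearMap.opNorm_le_bound _ (normAt_nonneg _ _) fun x => ?_
  let k : Fin n := ⟨0, hn⟩
  set x' : PiLp 2 (fun _ : Fin n => H) := PiLp.single 2 k x with hx'
  have h1 : ‖x'‖ = ‖x‖ := by simp [hx']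
  have h2 : (blockOp fun i j => aeval A ((P • (1 : Matrix (Fin n) (Fin n) ℂ[X])) i j)) x' k
      = aeval A P x := by
    rw [blockOp_apply, Finset.sum_eq_single k]
    · rw [hx', PiLp.single_eq_same]
      simp
    · intro j _ hj
      rw [hx', PiLp.single_eq_of_ne _ hj, map_zero]
    · intro h; exact absurd (Finset.mem_univ k) h
  rw [← h2, ← h1]
  exact (PiLp.norm_apply_le _ k).trans (ContinuousLinearMap.le_opNorm _ _)

theorem supOnW_smul_one {n : ℕ} (hn : 1 ≤ n) (A : H →L[ℂ] H) (P : ℂ[X]) :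
    supOnW A (P • (1 : Matrix (Fin n) (Fin n) ℂ[X]))
      = sSup ((fun z => ‖P.eval z‖) '' {z : ℂ | ∃ x : H, ‖x‖ = 1 ∧ inner ℂ x (A x) = z}) := by
  have : Nonempty (Fin n) := ⟨⟨0, hn⟩⟩
  unfold supOnW W
  congr 2
  funext z
  have e : (P • (1 : Matrix (Fin n) (Fin n) ℂ[X])).map (eval z)
      = P.eval z • (1 : Matrix (Fin n) (Fin n) ℂ) := by
    ext i j
    by_cases h : i = j <;> simp [h]
  rw [e, map_smul, map_one, norm_smul, norm_one, mul_one]

end rat

end Vale.Agent.P123.H686
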