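import Mathlib
import Vale.Agent.P123.H686.Mat4

/-! # P123: the elementary norms of the statement -/

namespace Vale.Agent.P123.H686
open Complex Set Filter Topology Polynomial

section norms
variable {H : Type*} [NormedAddCommGroup H] [InnerProductSpace ℂ H]

theorem blockNorm_eq {n : ℕ} (T : Fin n → Fin n → (H →L[ℂ] H)) :
    blockNorm T = ‖blockOp T‖ := by
  rw [← ContinuousLinearMap.sSup_unitClosedBall_eq_norm (blockOp T)]
  unfold blockNorm
  congr 1
  ext r
  simp only [Set.mem_ofPred_eq, Set.mem_image, mem_closedBall_zero_iff]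
  constructor
  · rintro ⟨x, hx, rfl⟩
    refine ⟨WithLp.toLp 2 x, ?_, ?_⟩
    · have h1 : ‖(WithLp.toLp 2 x : PiLp 2 (fun _ : Fin n => H))‖ ^ 2 ≤ 1 ^ 2 := by
        rw [norm_sq_eq', one_pow]; exact hx
      exact abs_le_of_sq_le_sq' h1 zero_le_one |>.2
    · rw [← Real.sqrt_sq (norm_nonneg (blockOp T _)), norm_sq_eq']
      simp only [blockOp_apply]
  · rintro ⟨x, hx, rfl⟩
    refine ⟨fun j => x j, ?_, ?_⟩
    · have h1 := pow_le_pow_left₀ (norm_nonneg _) hx 2
      rwa [norm_sq_eq', one_pow] at h1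
    · rw [← Real.sqrt_sq (norm_nonneg (blockOp T _)), norm_sq_eq']
      simp only [blockOp_apply]

theorem matNorm_eq {n : ℕ} (M : Matrix (Fin n) (Fin n) ℂ) :
    matNorm (fun i j => M i j) = ‖Matrix.toEuclideanCLM (𝕜 := ℂ) M‖ := by
  rw [← ContinuousLinearMap.sSup_unitClosedBall_eq_norm (Matrix.toEuclideanCLM (𝕜 := ℂ) M)]
  unfold matNorm
  congr 1
  ext r
  simp only [Set.mem_ofPred_eq, Set.mem_image, mem_closedBall_zero_iff]
  constructor
  · rintro ⟨x, hx, rfl⟩
    refine ⟨WithLp.toLp 2 x, ?_, ?_⟩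
    · have h1 : ‖(WithLp.toLp 2 x : EuclideanSpace ℂ (Fin n))‖ ^ 2 ≤ 1 ^ 2 := by
        rw [EuclideanSpace.norm_sq_eq, one_pow]; exact hx
      exact abs_le_of_sq_le_sq' h1 zero_le_one |>.2
    · rw [← Real.sqrt_sq (norm_nonneg (Matrix.toEuclideanCLM (𝕜 := ℂ) M _)),
        EuclideanSpace.norm_sq_eq]
      rfl
  · rintro ⟨x, hx, rfl⟩
    refine ⟨fun j => x j, ?_, ?_⟩
    · have h1 := pow_le_pow_left₀ (norm_nonneg _) hx 2
      rwa [EuclideanSpace.norm_sq_eq, one_pow] at h1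
    · rw [← Real.sqrt_sq (norm_nonneg (Matrix.toEuclideanCLM (𝕜 := ℂ) M _)),
        EuclideanSpace.norm_sq_eq]
      rfl

end norms

theorem polyBound_two {H : Type*} [NormedAddCommGroup H] [InnerProductSpace ℂ H]
    [CompleteSpace H] [Nontrivial H] (A : H →L[ℂ] H) (n : ℕ) : PolyBound n A 2 := by
  intro P
  have h := complete_bound A (Matrix.of P)
  have e1 : blockNorm (fun i j => aeval A (P i j)) = normAt A (Matrix.of P) := by
    rw [blockNorm_eq]; rfl
  have e2 : ∀ z : ℂ, matNorm (fun i j => (P i j).eval z)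
      = ‖Matrix.toEuclideanCLM (𝕜 := ℂ) ((Matrix.of P).map (eval z))‖ := by
    intro z
    rw [← matNorm_eq]; rfl
  rw [e1]
  simp only [e2]
  exact h

theorem ratBound_two {H : Type*} [NormedAddCommGroup H] [InnerProductSpace ℂ H]
    [CompleteSpace H] [Nontrivial H] (A : H →L[ℂ] H) (n : ℕ) : RatBound n A 2 := by
  intro P Q hQ
  obtain ⟨B, h1, h2, h3⟩ := complete_rational_bound A (Matrix.of P) Q hQ
  have h4 : Ring.inverse (aeval A Q) = B :=
    Ring.inverse_unit (⟨aeval A Q, B, h2, h1⟩ : (H →L[ℂ] H)ˣ)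
  have e2 : ∀ z : ℂ, matNorm (fun i j => (P i j).eval z / Q.eval z)
      = ‖Matrix.toEuclideanCLM (𝕜 := ℂ) ((Matrix.of P).map fun p => p.eval z / Q.eval z)‖ := by
    intro z
    rw [← matNorm_eq]; rfl
  rw [h4, blockNorm_eq]
  simp only [e2]
  exact h3

theorem scalarBound_of_polyBound {H : Type*} [NormedAddCommGroup H] [InnerProductSpace ℂ H]
    {A : H →L[ℂ] H} {n : ℕ} (hn : 1 ≤ n) {C : ℝ} (hC : PolyBound n A C) : ScalarBound A C := by
  intro P
  have h := hC (fun i j => (P • (1 : Matrix (Fin n) (Fin n) ℂ[X])) i j)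
  have e1 : blockNorm (fun i j => aeval A ((P • (1 : Matrix (Fin n) (Fin n) ℂ[X])) i j))
      = normAt A (P • (1 : Matrix (Fin n) (Fin n) ℂ[X])) := by
    rw [blockNorm_eq]; rfl
  have e2 : ∀ z : ℂ, matNorm (fun i j => ((P • (1 : Matrix (Fin n) (Fin n) ℂ[X])) i j).eval z)
      = ‖Matrix.toEuclideanCLM (𝕜 := ℂ)
          ((P • (1 : Matrix (Fin n) (Fin n) ℂ[X])).map (eval z))‖ := by
    intro z
    rw [← matNorm_eq]; rfl
  rw [e1] at h
  simp only [e2] at h
  have e3 := supOnW_smul_one hn A P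
  unfold supOnW at e3
  rw [e3] at h
  exact (aeval_le_normAt hn A P).trans h

theorem polyBound_of_ratBound {H : Type*} [NormedAddCommGroup H] [InnerProductSpace ℂ H]
    {A : H →L[ℂ] H} {n : ℕ} {C : ℝ} (hC : RatBound n A C) : PolyBound n A C := by
  intro P
  have h := hC P 1 (fun z _ => by simp)
  simpa using h

end Vale.Agent.P123.H686
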